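import Vale.Agent.P307.R2.H827.BlkInd
import Vale.Agent.P307.R2.H650.Defs
import Vale.Agent.P307.R2.H804.Xfer

/-!
Free copies of models.
-/

set_option linter.unusedSectionVars false

universe u

open FirstOrder Cardinal Set

namespace Vale.Agent.P307.R2.H827

open Vale.Agent.P307 Vale.Agent.P307.H304 Vale.Agent.P307.R2.H287 Vale.Agent.P307.R2.H1
  Vale.Agent.P307.R2.H806 Vale.Agent.P307.R2.H971 Vale.Agent.P307.R2.H541
  Vale.Agent.P307.R2.H68 Language.Structure Language.Substructure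

variable {L : Language.{u, u}} {K : AEC L} {ℓ θ Λ : Cardinal.{u}}
  {κf α : Cardinal.{u} → Cardinal.{u}} {C : Type u} [L.Structure C]

/-- The image of a hull. -/
theorem map_hull {t : Tpl K ℓ} {I I' : Type u} [LinearOrder I] [LinearOrder I'] (E : EM t I)
    (E' : EM t I') {σ : I → I'} {f : E.N → E'.N} (hf : IsMap E E' σ f) {W : Set I} {W' : Set I'}
    (hW : ∀ x ∈ W, σ x ∈ W') {x : E.N} (hx : x ∈ hull E W) : f x ∈ hull E' W' := by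
  obtain ⟨s, rfl⟩ := (mem_closure_image_iff E.c _ _).1 hx
  have h1 := hf (s.relabel Subtype.val)
  rw [Language.Term.realize_relabel, Language.Term.realize_relabel] at h1
  change f (s.realize fun q : W => E.c q.1) = _ at h1
  rw [h1]
  let r : W → W' := fun q => ⟨σ q.1, hW _ q.2⟩
  refine (mem_closure_image_iff E'.c _ _).2 ⟨s.relabel r, ?_⟩
  rw [Language.Term.realize_relabel]
  rfl

/-- Elements of the hull of the image. -/
theorem exists_hull_pre {t : Tpl K ℓ} {I I' : Type u} [LinearOrder I] [LinearOrder I']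
    (E : EM t I) (E' : EM t I') {σ : I → I'} {f : E.N → E'.N} (hf : IsMap E E' σ f) {W : Set I}
    {W' : Set I'} (hW : ∀ y ∈ W', ∃ x, x ∈ W ∧ σ x = y) {y : E'.N} (hy : y ∈ hull E' W') :
    ∃ x ∈ hull E W, f x = y := by
  obtain ⟨s, rfl⟩ := (mem_closure_image_iff E'.c _ _).1 hy
  choose r hr hr' using fun y : W' => hW y.1 y.2
  have h1 := hf (s.relabel r)
  rw [Language.Term.realize_relabel, Language.Term.realize_relabel] at h1
  refine ⟨(s.realize (E.c ∘ r)), ?_, h1.trans ?_⟩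
  · refine (mem_closure_image_iff E.c _ _).2 ⟨s.relabel fun q => ⟨r q, hr q⟩, ?_⟩
    rw [Language.Term.realize_relabel]
    rfl
  · congr 1
    funext q
    exact congrArg E'.c (hr' q)

section

variable (h₀ : BasePt K ℓ κf α θ) (hK : K.IsLS ℓ)
  (hunb : ∀ ν, ν < κf ν ∧ K.CategoricalIn (κf ν)) (hst : Stab K ℓ α (H287.thr κf))
  (hCm : K.mem C) (hs : Sat K θ C) (hCc : #C = Order.succ θ)

/-- **Free copies of models.** -/
theorem pg_freeM (hΛ : BasePt K ℓ κf α Λ) (hθΛ : θ < Λ) :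
    H650.FreeM (pg h₀ hK hunb hst hCm hs hCc) := by
  classical
  have hθ := aleph0_le_pt h₀ hK
  have hℓθ : ℓ ≤ θ := h₀.pt.lt.le
  rintro _ ⟨DP, hDP, hDPc, rfl⟩ _ ⟨DR, hDR, hDRc, rfl⟩ hPR Z hZ
  change #Z ≤ θ at hZ
  obtain ⟨DQ, hDQ, hDQs, hDQc⟩ := exists_sub_card hK hℓθ hCm ((Order.le_succ θ).trans hCc.ge)
    ((DP : Set C) ∪ Z) ((mk_union_le _ _).trans (add_le_of_le hθ hDPc.le hZ))
  have hPQ : (DP : Set C) ⊆ DQ := subset_union_left.trans hDQs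
  have hZQ : Z ⊆ DQ := subset_union_right.trans hDQs
  -- the big EM model
  obtain ⟨t⟩ := exists_tpl' hK hunb
  obtain ⟨E⟩ := exists_em t (SuccTy Λ)
  obtain ⟨hm, hS, hc⟩ := em_sat hΛ hK hunb E
  obtain ⟨a, -, ha⟩ := exists_bound (hθ.trans hθΛ.le) (∅ : Set (SuccTy Λ)) (by simp)
  obtain ⟨W, hWa, hWc, htr⟩ := exists_trace_blk hΛ hK hunb hst h₀.pt.lt h₀.pow hθΛ.le E a ha
  obtain ⟨w, ι, hι, hwc, hι1, hι2, hι3⟩ := exists_iota hθ hθΛ a W hWc fun x hx => hWa hx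
  -- the chart
  obtain ⟨E₂⟩ := exists_em t (SuccTy θ)
  obtain ⟨hm₂, hS₂, hc₂⟩ := em_sat h₀ hK hunb E₂
  obtain ⟨j, hj, hj'⟩ := E₂.exists_map E ι hι
  have hjm : IsMap E₂ E ι j := hj'
  let D₂ : L.Substructure E₂.N := hullL E₂ (Iio w)
  have hD₂ : K.le D₂ := le_hullL E₂ _
  have hD₂c : #D₂ = θ := le_antisymm (mk_hullL_le E₂ hℓθ hwc.le) (le_mk_hullL E₂ hwc.ge)
  obtain ⟨f⟩ := h₀.pt.cat.2 DP D₂ (K.mem_of_le _ hDP).1 (K.mem_of_le _ hD₂).1 hDPc hD₂c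
  obtain ⟨e₂, he₂⟩ := hs.exists_iso hK hℓθ hS₂ hCc hc₂ DP.subtype (D₂.subtype.comp f.toEmbedding)
    (AEC.emb_subtype.2 hDP) (AEC.Emb.comp (AEC.emb_subtype.2 hD₂)
      (AEC.Emb.of_equiv f (K.mem_of_le _ hDP).1)) hDPc
  have he₂' : ∀ p : DP, e₂ p = (f p : E₂.N) := he₂
  let fC : C ↪[L] E.N := j.comp e₂.toEmbedding
  have hfC : K.Emb fC := AEC.Emb.comp hj (AEC.Emb.of_equiv e₂ hCm)
  have hfCe : ∀ x, fC x = j (e₂ x) := fun _ => rfl
  have hfP : ∀ p ∈ DP, fC p ∈ hull E W := by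
    intro p hp
    rw [hfCe, he₂' ⟨p, hp⟩]
    exact map_hull E₂ E hjm (fun x hx => hι1 x hx) (f ⟨p, hp⟩).2
  have hfP' : ∀ y ∈ hull E W, ∃ p ∈ DP, fC p = y := by
    intro y hy
    obtain ⟨x, hx, rfl⟩ := exists_hull_pre E₂ E hjm (W := Iio w) hι2 hy
    refine ⟨f.symm ⟨x, hx⟩, (f.symm ⟨x, hx⟩).2, ?_⟩
    rw [hfCe, he₂', f.apply_symm_apply]
  have hfR : ∀ x, fC x ∈ hull E (W ∪ Ici a) := by
    intro x
    have h1 : e₂ x ∈ hull E₂ (univ : Set (SuccTy θ)) := by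
      change e₂ x ∈ closure (exLang L t.Λ) (E₂.c '' univ)
      rw [image_univ, E₂.top]
      trivial
    refine map_hull E₂ E hjm (fun x _ => ?_) h1
    rcases lt_or_ge x w with h | h
    · exact Or.inl (hι1 x h)
    · exact Or.inr (hι3 x h)
  -- the embedding of `DQ`
  let A : L.Substructure E.N := hullL E (Iio a)
  have hA : K.le A := le_hullL E _
  have hAc : #A = Λ := le_antisymm (mk_hullL_le E hΛ.pt.lt.le ha.le) (le_mk_hullL E ha.ge)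
  have hAs : Sat K θ A := h₀.sat hK hunb ((hΛ.pt.thr θ hθΛ).le.trans hAc.ge)
  obtain ⟨iA, hiA, hiA'⟩ := exists_lift (fC.comp DP.subtype) A.subtype
    (AEC.Emb.comp hfC (AEC.emb_subtype.2 hDP)) (AEC.emb_subtype.2 hA) fun p =>
      ⟨⟨fC p, hull_mono E hWa (hfP p p.2)⟩, rfl⟩
  obtain ⟨iQ, hiQ, hiQ'⟩ := exists_lift DP.subtype DQ.subtype (AEC.emb_subtype.2 hDP)
    (AEC.emb_subtype.2 hDQ) fun p => ⟨⟨p, hPQ p.2⟩, rfl⟩
  obtain ⟨kQ, hkQ, hkQ'⟩ := hAs DP DQ iA iQ hiA hiQ hDPc hDQc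
  -- a submodel with both images
  obtain ⟨N, hN, hNs, hNc⟩ := exists_sub_card hK hℓθ hm
    ((hθΛ.le.trans (Order.le_succ Λ)).trans hc.ge)
    (range (fC.comp DR.subtype) ∪ range (A.subtype.comp kQ))
    ((mk_union_le _ _).trans (add_le_of_le hθ (mk_range_le.trans hDRc.le)
      (mk_range_le.trans hDQc.le)))
  obtain ⟨fR, hfR1, hfR2⟩ := exists_lift (fC.comp DR.subtype) N.subtype
    (AEC.Emb.comp hfC (AEC.emb_subtype.2 hDR)) (AEC.emb_subtype.2 hN) fun r =>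
      ⟨⟨_, hNs (Or.inl ⟨r, rfl⟩)⟩, rfl⟩
  obtain ⟨fQ, hfQ1, hfQ2⟩ := exists_lift (A.subtype.comp kQ) N.subtype
    (AEC.Emb.comp (AEC.emb_subtype.2 hA) hkQ) (AEC.emb_subtype.2 hN) fun r =>
      ⟨⟨_, hNs (Or.inr ⟨r, rfl⟩)⟩, rfl⟩
  have hfR2' : ∀ r : DR, ((fR r : N) : E.N) = fC r := hfR2
  have hfQ2' : ∀ r : DQ, ((fQ r : N) : E.N) = (kQ r : E.N) := hfQ2
  obtain ⟨h, hh, hh'⟩ := hs DQ N DQ.subtype fQ (AEC.emb_subtype.2 hDQ) hfQ1 hDQc hNc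
  have hh1 : ∀ z : DQ, h (fQ z) = z := hh'
  have hagree : ∀ (p : C) (hp : p ∈ DP), fR ⟨p, hPR hp⟩ = fQ ⟨p, hPQ hp⟩ := by
    intro p hp
    apply Subtype.ext
    rw [hfR2', hfQ2']
    have h1 : iQ ⟨p, hp⟩ = ⟨p, hPQ hp⟩ := Subtype.ext (hiQ' ⟨p, hp⟩)
    rw [← h1, hkQ' ⟨p, hp⟩]
    exact (hiA' ⟨p, hp⟩).symm
  obtain ⟨e, he⟩ := hs.exists_iso hK hℓθ hs hCc hCc DR.subtype (h.comp fR)
    (AEC.emb_subtype.2 hDR) (AEC.Emb.comp hh hfR1) hDRc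
  have he' : ∀ r : DR, e r = h (fR r) := he
  have heP : ∀ (p : C) (hp : p ∈ DP), h (fR ⟨p, hPR hp⟩) = p := fun p hp => by
    rw [hagree p hp, hh1]
  refine ⟨e.toEquiv, ⟨e, fun _ => rfl⟩, fun p hp => ?_, ?_⟩
  · change e p = p
    have h1 := he' ⟨p, hPR hp⟩
    exact h1.trans (heP p hp)
  -- independence
  intro D hD hDc F hF hFc
  change #D < θ at hDc
  change #F < θ at hFc
  have hDr : ∀ d : D, ∃ r : DR, h (fR r) = d := by
    rintro ⟨d, hd⟩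
    rcases hD hd with h1 | ⟨r, hr, h1⟩
    · exact ⟨⟨d, hPR h1⟩, heP d h1⟩
    · exact ⟨⟨r, hr⟩, (he' ⟨r, hr⟩).symm.trans h1⟩
  choose r hr using hDr
  let s : F → DQ := fun z => ⟨z.1, hZQ (hF z.2)⟩
  obtain ⟨k₁, ⟨k, hk⟩, hk1, hk2⟩ := htr (range fun z : F => ((fQ (s z) : N) : E.N)) (by
      rintro _ ⟨z, rfl⟩
      change ((fQ (s z) : N) : E.N) ∈ hull E (Iio a)
      rw [hfQ2']
      exact (kQ (s z)).2) (mk_range_le.trans_lt hFc)
    (range fun d : D => ((fR (r d) : N) : E.N)) (by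
      rintro _ ⟨d, rfl⟩
      change ((fR (r d) : N) : E.N) ∈ hull E (W ∪ Ici a)
      rw [hfR2']
      exact hfR _) (mk_range_le.trans_lt hDc)
  have hp : ∀ z : F, ∃ p : DR, (p : C) ∈ DP ∧ ((fR p : N) : E.N) = k₁ (fQ (s z) : N) := by
    intro z
    obtain ⟨p, hp, hp'⟩ := hfP' _ (hk2 _ ⟨z, rfl⟩)
    exact ⟨⟨p, hPR hp⟩, hp, (hfR2' _).trans hp'⟩
  choose p hp hp' using hp
  let u : D ⊕ F → N := Sum.elim (fun d => fR (r d)) fun z => fQ (s z)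
  let v : D ⊕ F → N := Sum.elim (fun d => fR (r d)) fun z => fR (p z)
  let σ : Cardinal.{u} := max ℓ (#D + #F)
  have hσ : ℓ ≤ σ := le_max_left _ _
  have hσθ : σ < θ := max_lt h₀.pt.lt (add_lt_of_lt hθ hDc hFc)
  have hσα : σ ≤ α σ := (hst σ hσ).1
  have hc1 : #(D ⊕ F) ≤ σ := by
    rw [mk_sum, lift_id, lift_id]
    exact le_max_right _ _
  have hc2 : #(D ⊕ F) ≤ α σ := hc1.trans hσα
  have hℓα : ℓ ≤ α σ := hσ.trans hσα
  have hthr : thr κf (α σ) ≤ #N := by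
    rw [hNc]
    exact (h₀.pt.thr _ (h₀.al σ hσθ)).le
  have h1 : EqS L (α σ) u fun i => (u i : E.N) :=
    EqS.map_emb hK hunb hℓα N.subtype (AEC.emb_subtype.2 hN) hthr hc2 u
  have h2 : EqS L (α σ) v fun i => (v i : E.N) :=
    EqS.map_emb hK hunb hℓα N.subtype (AEC.emb_subtype.2 hN) hthr hc2 v
  have h3 : EqS L (α σ) u fun i => h (u i) := EqS.map_emb hK hunb hℓα h hh hthr hc2 u
  have h4 : EqS L (α σ) v fun i => h (v i) := EqS.map_emb hK hunb hℓα h hh hthr hc2 v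
  have h5 : EqS L (α σ) (fun i => (u i : E.N)) fun i => k (u i : E.N) :=
    H804.EqS.equiv (hK.1.trans hℓα) hc2 k _
  have h6 : (fun i => k (u i : E.N)) = fun i => (v i : E.N) := by
    funext i
    rcases i with d | z
    · rw [hk]
      exact hk1 _ ⟨d, rfl⟩
    · rw [hk]
      exact (hp' z).symm
  rw [h6] at h5
  obtain ⟨g, hg, hg'⟩ := exists_mem_autG h₀ hK hunb hst hCm hs hCc hσ hσθ hc1 _ _
    (((h3.symm.trans h1).trans h5).trans (h2.symm.trans h4))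
  refine ⟨g, hg, fun d hd => ?_, fun z hz => ?_⟩
  · have h7 := hg' (Sum.inl ⟨d, hd⟩)
    change g (h (fR (r ⟨d, hd⟩))) = h (fR (r ⟨d, hd⟩)) at h7
    rwa [hr] at h7
  · have h7 := hg' (Sum.inr ⟨z, hz⟩)
    change g (h (fQ (s ⟨z, hz⟩))) = h (fR (p ⟨z, hz⟩)) at h7
    rw [hh1] at h7
    have h8 : h (fR (p ⟨z, hz⟩)) = (p ⟨z, hz⟩ : C) := heP _ (hp ⟨z, hz⟩)
    rw [h8] at h7
    change g z = _ at h7
    rw [h7]
    exact hp ⟨z, hz⟩

end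

end Vale.Agent.P307.R2.H827
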