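import Vale.Agent.P307.R2.H68.AllD

/-!
A big model with a small trace, and a block above it: every piece of the big model is moved into the
trace over the pieces of the EM model over the trace and the block.
-/

set_option linter.unusedSectionVars false

universe u

open FirstOrder Cardinal Set

namespace Vale.Agent.P307.R2.H827

open Vale.Agent.P307 Vale.Agent.P307.H304 Vale.Agent.P307.R2.H287 Vale.Agent.P307.R2.H1
  Vale.Agent.P307.R2.H806 Vale.Agent.P307.R2.H971 Vale.Agent.P307.R2.H541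
  Vale.Agent.P307.R2.H68 Language.Structure Language.Substructure

variable {L : Language.{u, u}} {K : AEC L} {ℓ θ Λ : Cardinal.{u}}
  {κf α : Cardinal.{u} → Cardinal.{u}}

/-- The final segments of `Λ⁺` are large. -/
theorem mk_Ici_succTy (hΛ : ℵ₀ ≤ Λ) (a : SuccTy Λ) : #(Ici a) = Order.succ Λ := by
  have hc : #(SuccTy Λ) = Order.succ Λ := by rw [mk_toType, card_ord]
  have hinf : Infinite (SuccTy Λ) := infinite_iff.2 (by
    rw [hc]
    exact hΛ.trans (Order.le_succ Λ))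
  rw [← Set.compl_Iio, mk_compl_of_infinite (Iio a), hc]
  rw [hc]
  exact Order.lt_succ_of_le (mk_Iio_succTy a)

/-- A subset of size `θ` of a well-order is a segment of `θ⁺`, and the rest of `θ⁺` goes above. -/
theorem exists_iota (hθ : ℵ₀ ≤ θ) (hθΛ : θ < Λ) (a : SuccTy Λ) (W : Set (SuccTy Λ))
    (hW : #W = θ) (hWa : ∀ x ∈ W, x < a) :
    ∃ (w : SuccTy θ) (ι : SuccTy θ → SuccTy Λ), StrictMono ι ∧ #(Iio w) = θ ∧
      (∀ x, x < w → ι x ∈ W) ∧ (∀ y ∈ W, ∃ x, x < w ∧ ι x = y) ∧ ∀ x, w ≤ x → a ≤ ι x := by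
  classical
  have hΛ : ℵ₀ ≤ Λ := hθ.trans hθΛ.le
  have h1 : Ordinal.type (α := W) (· < ·) < Ordinal.type (α := SuccTy θ) (· < ·) := by
    rw [Ordinal.type_toType, Cardinal.lt_ord]
    change #W < _
    rw [hW]
    exact Order.lt_succ θ
  obtain ⟨w, hw⟩ := Ordinal.typein_surj (α := SuccTy θ) (· < ·) h1
  obtain ⟨f⟩ := Ordinal.type_eq.1 (hw : Ordinal.type (Subrel ((· < ·) : SuccTy θ → SuccTy θ → Prop)
    (· < w)) = Ordinal.type (α := W) (· < ·))
  have h2 : #(Ici w) < #(Ici a) := by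
    rw [mk_Ici_succTy hθ, mk_Ici_succTy hΛ]
    exact Order.succ_lt_succ hθΛ
  obtain ⟨j, hj⟩ := exists_strictMono (D := Ici w) (H := Ici a) h2
  let ι : SuccTy θ → SuccTy Λ := fun x => if h : x < w then (f ⟨x, h⟩).1 else
    (j ⟨x, not_lt.1 h⟩).1
  have hι1 : ∀ x (h : x < w), ι x = (f ⟨x, h⟩).1 := fun x h => dif_pos h
  have hι2 : ∀ x (h : w ≤ x), ι x = (j ⟨x, h⟩).1 := fun x h => dif_neg (not_lt.2 h)
  refine ⟨w, ι, ?_, ?_, fun x hx => ?_, fun y hy => ?_, fun x hx => ?_⟩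
  · intro x y hxy
    rcases lt_or_ge y w with hy | hy
    · rw [hι1 x (hxy.trans hy), hι1 y hy]
      exact f.map_rel_iff.2 hxy
    · rcases lt_or_ge x w with hx | hx
      · rw [hι1 x hx, hι2 y hy]
        exact (hWa _ (f ⟨x, hx⟩).2).trans_le (j ⟨y, hy⟩).2
      · rw [hι2 x hx, hι2 y hy]
        exact hj hxy
  · exact (mk_congr f.toEquiv).trans hW
  · rw [hι1 x hx]
    exact (f ⟨x, hx⟩).2
  · refine ⟨(f.symm ⟨y, hy⟩).1, (f.symm ⟨y, hy⟩).2, ?_⟩
    rw [hι1 _ (f.symm ⟨y, hy⟩).2]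
    have h3 : f (f.symm ⟨y, hy⟩) = ⟨y, hy⟩ := f.apply_symm_apply _
    exact congrArg Subtype.val h3
  · rw [hι2 x hx]
    exact (j ⟨x, hx⟩).2

/-- **Compression of the block**: over the hull of an initial segment, small pieces of the block are
moved into any larger piece of the block. -/
theorem exists_compress (hK : K.IsLS ℓ) (hℓ : ℓ ≤ Λ) (t : Tpl K ℓ) (E : EM t (SuccTy Λ))
    (hE : Sat K Λ E.N) (a : SuccTy Λ) (ha : #(Iio a) = Λ) {V B : Set (SuccTy Λ)}
    (hV : ∀ x ∈ V, a ≤ x) (hB : ∀ x ∈ B, a ≤ x) (hVB : #V < #B) :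
    ∃ g ∈ autG L E.N, (∀ x ∈ hull E (Iio a), g x = x) ∧
      ∀ W ⊆ Iio a, ∀ x ∈ hull E (W ∪ V), g x ∈ hull E (W ∪ B) := by
  classical
  have hΛ : ℵ₀ ≤ Λ := hK.1.trans hℓ
  obtain ⟨j, hj⟩ := exists_strictMono (D := V) (H := B) hVB
  have hVΛ : #V ≤ Λ := by
    refine Order.lt_succ_iff.1 (hVB.trans_le ?_)
    rw [← mk_Ici_succTy hΛ a]
    exact mk_le_mk_of_subset hB
  let J' : Set (SuccTy Λ) := Iio a ∪ V
  have hJ' : #J' = Λ := by
    refine le_antisymm ((mk_union_le _ _).trans (add_le_of_le hΛ ha.le hVΛ)) ?_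
    exact ha.symm.le.trans (mk_le_mk_of_subset subset_union_left)
  have hJV : ∀ x : J', ¬ x.1 < a → x.1 ∈ V := fun x hx => x.2.resolve_left hx
  let σ : J' → SuccTy Λ := fun x => if h : x.1 < a then x.1 else (j ⟨x.1, hJV x h⟩).1
  have hσ1 : ∀ x : J', x.1 < a → σ x = x.1 := fun x h => dif_pos h
  have hσ2 : ∀ (x : J') (h : x.1 ∈ V), σ x = (j ⟨x.1, h⟩).1 := fun x h =>
    dif_neg (not_lt.2 (hV _ h))
  have hσ : StrictMono σ := by
    intro x y hxy
    have hxy' : x.1 < y.1 := hxy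
    rcases y.2 with hy | hy
    · rw [hσ1 x (hxy'.trans hy), hσ1 y hy]
      exact hxy'
    · rcases x.2 with hx | hx
      · rw [hσ1 x hx, hσ2 y hy]
        exact lt_of_lt_of_le hx (hB _ (j ⟨y.1, hy⟩).2)
      · rw [hσ2 x hx, hσ2 y hy]
        exact hj hxy'
  obtain ⟨E'⟩ := exists_em t J'
  obtain ⟨j₁, hj₁, hj₁'⟩ := E'.exists_map E (Subtype.val : J' → SuccTy Λ) fun _ _ h => h
  obtain ⟨j₂, hj₂, hj₂'⟩ := E'.exists_map E σ hσ
  have hEc : #E.N = Order.succ Λ := E.card_eq (hℓ.trans (Order.le_succ Λ)) (by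
    rw [mk_toType, card_ord])
  obtain ⟨e, he⟩ := hE.exists_iso hK hℓ hE hEc hEc j₁ j₂ hj₁ hj₂ (E'.card_eq hℓ hJ')
  -- the value on terms
  have key : ∀ (U : Set (SuccTy Λ)) (hU : U ⊆ J') (s : (exLang L t.Λ).Term U),
      e (s.realize fun q : U => E.c q.1) = s.realize fun q : U => E.c (σ ⟨q.1, hU q.2⟩) := by
    intro U hU s
    let r : U → J' := fun q => ⟨q.1, hU q.2⟩
    have h1 := he ((s.relabel r).realize E'.c)
    rw [hj₁', hj₂', Language.Term.realize_relabel, Language.Term.realize_relabel] at h1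
    exact h1
  refine ⟨e.toEquiv, ⟨e, fun _ => rfl⟩, fun x hx => ?_, fun W hW x hx => ?_⟩
  · obtain ⟨s, rfl⟩ := (mem_closure_image_iff E.c _ _).1 hx
    refine (key (Iio a) subset_union_left s).trans ?_
    congr 1
    funext q
    exact congrArg E.c (hσ1 ⟨q.1, Or.inl q.2⟩ (mem_Iio.1 q.2))
  · obtain ⟨s, rfl⟩ := (mem_closure_image_iff E.c _ _).1 hx
    have h1 := key (W ∪ V) (union_subset_union_left V hW) s
    change e _ ∈ _
    rw [h1]
    let r : (W ∪ V : Set (SuccTy Λ)) → (W ∪ B : Set (SuccTy Λ)) := fun q =>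
      ⟨σ ⟨q.1, union_subset_union_left V hW q.2⟩, by
        rcases q.2 with h | h
        · rw [hσ1 _ (hW h)]
          exact Or.inl h
        · rw [hσ2 _ h]
          exact Or.inr (j ⟨q.1, h⟩).2⟩
    refine (mem_closure_image_iff E.c _ _).2 ⟨s.relabel r, ?_⟩
    rw [Language.Term.realize_relabel]
    rfl

end Vale.Agent.P307.R2.H827
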