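import Vale.Agent.P307.R2.H827.Blk

/-!
The trace: small pieces of the big model are moved into the trace over small pieces of the EM model
over the trace and the block.
-/

set_option linter.unusedSectionVars false

universe u

open FirstOrder Cardinal Set

namespace Vale.Agent.P307.R2.H827

open Vale.Agent.P307 Vale.Agent.P307.H304 Vale.Agent.P307.R2.H287 Vale.Agent.P307.R2.H1
  Vale.Agent.P307.R2.H806 Vale.Agent.P307.R2.H971 Vale.Agent.P307.R2.H541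
  Vale.Agent.P307.R2.H68 Language.Structure Language.Substructure

variable {L : Language.{u, u}} {K : AEC L} {ℓ θ Λ : Cardinal.{u}}
  {κf α : Cardinal.{u} → Cardinal.{u}}

/-- The EM model over `Λ⁺` is saturated of size `Λ⁺`. -/
theorem em_sat (hΛ : BasePt K ℓ κf α Λ) (hK : K.IsLS ℓ)
    (hunb : ∀ ν, ν < κf ν ∧ K.CategoricalIn (κf ν)) {t : Tpl K ℓ} (E : EM t (SuccTy Λ)) :
    K.mem E.N ∧ Sat K Λ E.N ∧ #E.N = Order.succ Λ :=
  ⟨E.mem, hΛ.ab.sat_em hK hΛ.pt.lt.le (hΛ.largeExt hK hunb _) t hΛ.pt.lt.le E,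
    E.card_eq (hΛ.pt.lt.le.trans (Order.le_succ Λ)) (by rw [mk_toType, card_ord])⟩

/-- **The trace.** -/
theorem exists_trace_blk (hΛ : BasePt K ℓ κf α Λ) (hK : K.IsLS ℓ)
    (hunb : ∀ ν, ν < κf ν ∧ K.CategoricalIn (κf ν)) (hst : Stab K ℓ α (H287.thr κf))
    (hℓθ : ℓ < θ) (hpow : ∀ ρ < θ, (2 : Cardinal.{u}) ^ ρ < θ) (hθΛ : θ ≤ Λ) {t : Tpl K ℓ}
    (E : EM t (SuccTy Λ)) (a : SuccTy Λ) (ha : #(Iio a) = Λ) :
    ∃ W ⊆ Iio a, #W = θ ∧ ∀ X ⊆ (hull E (Iio a) : Set E.N), #X < θ →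
      ∀ q ⊆ (hull E (W ∪ Ici a) : Set E.N), #q < θ →
        ∃ g ∈ autG L E.N, (∀ x ∈ q, g x = x) ∧ ∀ x ∈ X, g x ∈ hull E W := by
  classical
  obtain ⟨hm, hS, hc⟩ := em_sat hΛ hK hunb E
  have hθ : ℵ₀ ≤ θ := hK.1.trans hℓθ.le
  have hΛ0 : ℵ₀ ≤ Λ := hθ.trans hθΛ
  -- the big model
  have hA : (hullL E (Iio a) : Set E.N) ∈ (pg hΛ hK hunb hst hm hS hc).S :=
    ⟨hullL E (Iio a), le_hullL E _, le_antisymm (mk_hullL_le E hΛ.pt.lt.le ha.le)
      (le_mk_hullL E ha.ge), rfl⟩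
  obtain ⟨φ, hφ, hEC⟩ := exists_closure_all hΛ hK hunb hst hm hS hc hℓθ hpow hθΛ hA
  -- supports
  have hsup : ∀ x : E.N, ∃ w : Finset (SuccTy Λ), x ∈ hull E (w : Set _) ∧
      (x ∈ hull E (Iio a) → (w : Set (SuccTy Λ)) ⊆ Iio a) := by
    intro x
    by_cases hx : x ∈ hull E (Iio a)
    · obtain ⟨w, s, h1, h2⟩ := exists_finset_term_of_mem E hx
      exact ⟨w, (mem_closure_image_iff E.c _ _).2 ⟨s, h2⟩, fun _ => h1⟩
    · have h1 : x ∈ hull E (univ : Set (SuccTy Λ)) := by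
        change x ∈ closure (exLang L t.Λ) (E.c '' univ)
        rw [image_univ, E.top]
        trivial
      obtain ⟨w, s, -, h2⟩ := exists_finset_term_of_mem E h1
      exact ⟨w, (mem_closure_image_iff E.c _ _).2 ⟨s, h2⟩, fun h => absurd h hx⟩
  choose w hw hwA using hsup
  let G : Set E.N → Set (SuccTy Λ) := fun H => ⋃ x ∈ H, (w x : Set (SuccTy Λ))
  let ψ : Finset E.N → Set E.N := fun s => (hull E (G s) : Set E.N)
  have hψ : ∀ s, #(ψ s) ≤ θ := by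
    intro s
    refine mk_hullL_le E hℓθ.le ?_
    have h1 : (G s).Finite := by
      refine Set.Finite.biUnion s.finite_toSet fun x _ => ?_
      exact (w x).finite_toSet
    exact h1.lt_aleph0.le.trans hθ
  -- the index sets
  obtain ⟨B, hBa, hBc⟩ : ∃ B ⊆ Ici a, #B = θ := by
    refine le_mk_iff_exists_subset.1 ?_
    rw [mk_Ici_succTy hΛ0]
    exact hθΛ.trans (Order.le_succ Λ)
  obtain ⟨B', hB'a, hB'c⟩ : ∃ B' ⊆ Iio a, #B' = θ := by
    refine le_mk_iff_exists_subset.1 ?_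
    exact hθΛ.trans ha.ge
  obtain ⟨H, hH, hXH, hHc⟩ := exists_clo (φ := fun s => φ s ∪ ψ s) hθ (fun s =>
    (mk_union_le _ _).trans (add_le_of_le hθ (hφ s) (hψ s))) (E.c '' (B ∪ B'))
    (mk_image_le.trans ((mk_union_le _ _).trans (add_le_of_le hθ hBc.le hB'c.le)))
  obtain ⟨-, -, hEC⟩ := hEC H (hH.mono fun s => subset_union_left)
  have hHψ : Clo ψ H := hH.mono fun s => subset_union_right
  have hHG : ∀ z : E.N, z ∈ H ↔ z ∈ hull E (G H) := by
    intro z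
    constructor
    · intro hz
      exact hull_mono E (fun j hj => mem_biUnion hz hj) (hw z)
    · intro hz
      obtain ⟨v, s, hv, hs⟩ := exists_finset_term_of_mem E hz
      have h1 : ∀ j ∈ v, ∃ x ∈ H, j ∈ (w x : Set (SuccTy Λ)) := fun j hj => by
        obtain ⟨x, hx, hj'⟩ := mem_iUnion₂.1 (hv j hj)
        exact ⟨x, hx, hj'⟩
      have : Nonempty E.N := ⟨E.c a⟩
      choose! f hf1 hf2 using h1
      refine hHψ (v.image f) (fun y hy => ?_) ?_
      · obtain ⟨j, hj, rfl⟩ := Finset.mem_image.1 (Finset.mem_coe.1 hy)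
        exact hf1 j hj
      · refine hull_mono E (W := (v : Set (SuccTy Λ))) (fun j hj => ?_)
          ((mem_closure_image_iff E.c _ _).2 ⟨s, hs⟩)
        exact mem_biUnion (x := f j) (Finset.mem_coe.2 (Finset.mem_image_of_mem f hj)) (hf2 j hj)
  -- the trace
  let W : Set (SuccTy Λ) := Iio a ∩ G H
  have hWA : ∀ z : E.N, z ∈ hull E W ↔ z ∈ hull E (Iio a) ∧ z ∈ H := by
    intro z
    constructor
    · intro hz
      exact ⟨hull_mono E inter_subset_left hz, (hHG z).2 (hull_mono E inter_subset_right hz)⟩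
    · rintro ⟨hz, hzH⟩
      refine hull_mono E (W := (w z : Set (SuccTy Λ))) (fun j hj => ?_) (hw z)
      exact ⟨hwA z hz hj, mem_biUnion hzH hj⟩
  have hWθ : #W ≤ θ := by
    refine (mk_le_mk_of_subset inter_subset_right).trans ?_
    refine (mk_biUnion_le _ _).trans ((mul_le_mul' hHc (ciSup_le' fun x => ?_)).trans
      (mul_eq_self hθ).le)
    exact (lt_aleph0_of_finite _).le.trans hθ
  have hθW : θ ≤ #W := by
    by_contra hlt
    rw [not_le] at hlt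
    have h1 : #(hullL E W) ≤ max ℓ #W := mk_hullL_le E (le_max_left _ _) (le_max_right _ _)
    have h2 : θ ≤ #(hullL E W) := by
      rw [← hB'c, ← mk_image_eq (f := E.c) (s := B') E.inj]
      refine mk_le_mk_of_subset ?_
      rintro _ ⟨b, hb, rfl⟩
      exact (hWA _).2 ⟨subset_closure ⟨b, hB'a hb, rfl⟩, hXH ⟨b, Or.inr hb, rfl⟩⟩
    exact absurd (h2.trans h1) (not_le.2 (max_lt hℓθ hlt))
  have hBH : ∀ z : E.N, z ∈ hull E (W ∪ B) → z ∈ H := by
    intro z hz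
    refine (hHG z).2 ?_
    have h1 : hull E (W ∪ B) ≤ hull E (G H) := by
      refine closure_le.2 ?_
      rintro _ ⟨b, hb | hb, rfl⟩
      · exact subset_closure ⟨b, hb.2, rfl⟩
      · exact (hHG _).1 (hXH ⟨b, Or.inl hb, rfl⟩)
    exact h1 hz
  refine ⟨W, inter_subset_left, le_antisymm hWθ hθW, fun X hX hXc q hq hqc => ?_⟩
  -- the support of `q`
  have hsq : ∀ x : q, ∃ v : Finset (SuccTy Λ), (v : Set (SuccTy Λ)) ⊆ W ∪ Ici a ∧
      x.1 ∈ hull E (v : Set _) := by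
    intro x
    obtain ⟨v, s, h1, h2⟩ := exists_finset_term_of_mem E (hq x.2)
    exact ⟨v, h1, (mem_closure_image_iff E.c _ _).2 ⟨s, h2⟩⟩
  choose v hv hv' using hsq
  let V : Set (SuccTy Λ) := (⋃ x : q, (v x : Set (SuccTy Λ))) ∩ Ici a
  have hVc : #V < #B := by
    rw [hBc]
    refine (mk_le_mk_of_subset inter_subset_left).trans_lt ?_
    have h1 : #(⋃ x : q, (v x : Set (SuccTy Λ)) : Set (SuccTy Λ)) ≤ max ℓ #q := by
      have h2 : ℵ₀ ≤ max ℓ #q := hK.1.trans (le_max_left _ _)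
      refine (mk_iUnion_le _).trans ((mul_le_mul' (le_max_right _ _) (ciSup_le' fun x => ?_)).trans
        (mul_eq_self h2).le)
      exact (lt_aleph0_of_finite _).le.trans h2
    exact h1.trans_lt (max_lt hℓθ hqc)
  have hqV : ∀ x ∈ q, x ∈ hull E (W ∪ V) := by
    intro x hx
    refine hull_mono E (fun j hj => ?_) (hv' ⟨x, hx⟩)
    rcases hv ⟨x, hx⟩ hj with h | h
    · exact Or.inl h
    · exact Or.inr ⟨mem_iUnion.2 ⟨⟨x, hx⟩, hj⟩, h⟩
  obtain ⟨g₁, hg₁, h1, h2⟩ := exists_compress hK hΛ.pt.lt.le t E hS a ha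
    (V := V) (B := B) (fun x hx => hx.2) (fun x hx => hBa hx) hVc
  have h3 : g₁ '' q ⊆ H := by
    rintro _ ⟨x, hx, rfl⟩
    exact hBH _ (h2 W inter_subset_left x (hqV x hx))
  let d : Cardinal.{u} := max #X #q
  obtain ⟨q₀, hq₀, -, h4⟩ := (hEC d (max_lt hXc hqc)).1 X hX (le_max_left _ _)
  obtain ⟨g₂, hg₂, h5, h6⟩ := h4 (g₁ '' q) h3 (mk_image_le.trans (le_max_right _ _))
  refine ⟨g₁⁻¹ * g₂ * g₁, mul_mem (mul_mem (inv_mem hg₁) hg₂) hg₁, fun x hx => ?_, fun x hx => ?_⟩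
  · rw [Equiv.Perm.mul_apply, Equiv.Perm.mul_apply, h5 _ (mem_image_of_mem _ hx)]
    exact g₁.symm_apply_apply x
  · rw [Equiv.Perm.mul_apply, Equiv.Perm.mul_apply, h1 x (hX hx)]
    have h7 : g₂ x ∈ hull E W := by
      have h8 := hq₀ (h6 x hx)
      exact (hWA _).2 ⟨h8.1, h8.2⟩
    have h8 : g₁ (g₂ x) = g₂ x := h1 _ (hull_mono E inter_subset_left h7)
    have h9 : g₁⁻¹ (g₂ x) = g₂ x := by
      rw [Equiv.Perm.inv_eq_iff_eq, h8]
    rw [h9]
    exact h7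

end Vale.Agent.P307.R2.H827
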