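import Vale.Agent.P307.R2.H229.Tree
import Vale.Agent.P307.R2.H533.Pt
import Vale.Agent.P307.R2.H650.Defs

/-!
A chain of models each of which realizes the types of points over the previous one contains copies
of all the models over its first member.
-/

universe u

open Set Cardinal Function

namespace Vale.Agent.P307.R2.H827

open Vale.Agent.P307.R2.H541 Vale.Agent.P307.R2.H541.PG Vale.Agent.P307.R2.H533

variable {C : Type u} {M : PG C}

/-- All types of points over `D` are realized in `E`. -/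
def Rlz (M : PG C) (D E : Set C) : Prop := ∀ x : C, ∃ g ∈ M.G, (∀ a ∈ D, g a = a) ∧ g x ∈ E

theorem Rlz.mono {D D' E E' : Set C} (h : Rlz M D E) (hD : D' ⊆ D) (hE : E ⊆ E') :
    Rlz M D' E' := by
  intro x
  obtain ⟨g, hg, h1, h2⟩ := h x
  exact ⟨g, hg, fun a ha => h1 a (hD ha), hE h2⟩

/-- **Universality.** -/
theorem exists_emb_of_rlz {W : Type u} [LinearOrder W] [WellFoundedLT W] [Nonempty W]
    (hunion : ∀ (ι : Type u) [LinearOrder ι] [Nonempty ι] (N : ι → Set C), Monotone N →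
      (∀ i, N i ∈ M.S) → #(⋃ i, N i : Set C) ≤ M.χ → (⋃ i, N i) ∈ M.S)
    (hglue : ∀ (ι : Type u) [LinearOrder ι] [Nonempty ι] (N : ι → Set C) (g : ι → Equiv.Perm C),
      Monotone N → (∀ i, N i ∈ M.S) → #(⋃ i, N i : Set C) ≤ M.χ → (∀ i, g i ∈ M.G) →
        (∀ i j, i ≤ j → ∀ a ∈ N i, g j a = g i a) → ∃ h ∈ M.G, ∀ i, ∀ a ∈ N i, h a = g i a)
    (hat : ∀ P ∈ M.S, ∀ x : C, ∃ N, M.Atomic N ({x} ∪ P))
    {D E : W → Set C} (hE : ∀ i, E i ∈ M.S) (hDE : ∀ i, D i ⊆ E i)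
    (hr : ∀ i, Rlz M (D i) (E i)) (hED : ∀ i j, j < i → E j ⊆ D i) {P R : Set C} (hP : P ∈ M.S)
    (hPD : ∀ i, P ⊆ D i) (hR : R ∈ M.S) (hPR : P ⊆ R) (r : W → C) (hrR : R ⊆ range r) :
    ∃ g ∈ M.G, (∀ a ∈ P, g a = a) ∧ ∀ a ∈ R, g a ∈ ⋃ i, E i := by
  classical
  have hRne : R.Nonempty := by
    rw [nonempty_iff_ne_empty]
    rintro rfl
    have h1 := M.S_card hR
    rw [mk_eq_zero] at h1
    have h2 := M.hχ
    rw [← h1] at h2
    exact absurd h2 (not_le.2 aleph0_pos)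
  let r' : W → C := fun i => if r i ∈ R then r i else hRne.choose
  have hr'R : ∀ i, r' i ∈ R := by
    intro i
    by_cases h : r i ∈ R
    · have h1 : r' i = r i := if_pos h
      rw [h1]
      exact h
    · have h1 : r' i = _ := if_neg h
      rw [h1]
      exact hRne.choose_spec
  have hRr' : R ⊆ range r' := by
    intro x hx
    obtain ⟨i, rfl⟩ := hrR hx
    exact ⟨i, if_pos hx⟩
  let Q : W → (W → Set C × Equiv.Perm C) → Prop := fun i d =>
    (d i).1 ∈ M.S ∧ P ⊆ (d i).1 ∧ (d i).1 ⊆ R ∧ r' i ∈ (d i).1 ∧ (d i).2 ∈ M.G ∧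
      (∀ a ∈ P, (d i).2 a = a) ∧ (∀ a ∈ (d i).1, (d i).2 a ∈ E i) ∧
        ∀ j, j < i → (d j).1 ⊆ (d i).1 ∧ ∀ a ∈ (d j).1, (d i).2 a = (d j).2 a
  obtain ⟨d, hd⟩ := exists_rec (D := Set C × Equiv.Perm C) Q (by
    rintro i d d' hdd ⟨h1, h2, h3, h4, h5, h6, h7, h8⟩
    have hi := hdd i le_rfl
    refine ⟨?_, ?_, ?_, ?_, ?_, ?_, ?_, fun j hj => ?_⟩ <;> rw [← hi]
    · exact h1
    · exact h2
    · exact h3
    · exact h4
    · exact h5
    · exact h6
    · exact h7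
    · rw [← hdd j hj.le]
      exact h8 j hj) (by
    intro i d hd
    -- the part before `i`
    have hpre : ∃ U ∈ M.S, P ⊆ U ∧ U ⊆ R ∧ (∀ k < i, (d k).1 ⊆ U) ∧ ∃ g ∈ M.G,
        (∀ a ∈ P, g a = a) ∧ (∀ a ∈ U, g a ∈ D i) ∧ ∀ k < i, ∀ a ∈ (d k).1, g a = (d k).2 a := by
      by_cases hne : Nonempty (Iio i)
      · have hmono : Monotone fun k : Iio i => (d k).1 := by
          intro k k' hkk
          rcases hkk.lt_or_eq with h | h
          · exact ((hd k' k'.2).2.2.2.2.2.2.2 k h).1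
          · rw [h]
        have hsub : (⋃ k : Iio i, (d k).1) ⊆ R := iUnion_subset fun k => (hd k k.2).2.2.1
        have hc : #(⋃ k : Iio i, (d k).1 : Set C) ≤ M.χ :=
          (mk_le_mk_of_subset hsub).trans (M.S_card hR).le
        obtain ⟨g, hg, hg'⟩ := hglue (Iio i) (fun k => (d k).1) (fun k => (d k).2) hmono
          (fun k => (hd k k.2).1) hc (fun k => (hd k k.2).2.2.2.2.1) (by
            intro k k' hkk a ha
            rcases hkk.lt_or_eq with h | h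
            · exact ((hd k' k'.2).2.2.2.2.2.2.2 k h).2 a ha
            · rw [h])
        have k₀ : Iio i := Classical.choice hne
        refine ⟨⋃ k : Iio i, (d k).1, hunion (Iio i) _ hmono (fun k => (hd k k.2).1) hc,
          (hd k₀ k₀.2).2.1.trans (subset_iUnion (fun k : Iio i => (d k).1) k₀), hsub,
          fun k hk => subset_iUnion (fun k : Iio i => (d k).1) ⟨k, hk⟩, g, hg, fun a ha => ?_,
          fun a ha => ?_, fun k hk a ha => hg' ⟨k, hk⟩ a ha⟩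
        · rw [hg' k₀ a ((hd k₀ k₀.2).2.1 ha)]
          exact (hd k₀ k₀.2).2.2.2.2.2.1 a ha
        · obtain ⟨k, hk⟩ := mem_iUnion.1 ha
          rw [hg' k a hk]
          exact hED i k k.2 ((hd k k.2).2.2.2.2.2.2.1 a hk)
      · refine ⟨P, hP, Subset.rfl, hPR, fun k hk => absurd ⟨⟨k, hk⟩⟩ hne, 1, M.G.one_mem,
          fun a _ => rfl, fun a ha => hPD i ha, fun k hk => absurd ⟨⟨k, hk⟩⟩ hne⟩
    obtain ⟨U, hU, hPU, hUR, hUd, g, hg, hgP, hgU, hgd⟩ := hpre
    obtain ⟨k₀, hk₀, hk₀D, hk₀x⟩ := hr i (g (r' i))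
    obtain ⟨N₀, hN₀⟩ := hat U hU (r' i)
    obtain ⟨N, hN, hNR⟩ := exists_atomic_in hN₀ hR (union_subset
      (singleton_subset_iff.2 (hr'R i)) hUR)
    obtain ⟨h, hh, h1, h2⟩ := hN.exists_embed (f := fun x => (k₀ * g : Equiv.Perm C) x)
      (fun A _ _ => ⟨k₀ * g, M.G.mul_mem hk₀ hg, fun _ _ => rfl⟩) (hE i) (by
        rintro x (rfl | hx)
        · rw [Equiv.Perm.mul_apply]
          exact hk₀x
        · rw [Equiv.Perm.mul_apply, hk₀D _ (hgU x hx)]
          exact hDE i (hgU x hx))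
    have h3 : ∀ a ∈ U, h a = g a := by
      intro a ha
      rw [h1 a (Or.inr ha), Equiv.Perm.mul_apply, hk₀D _ (hgU a ha)]
    refine ⟨(N, h), ?_⟩
    change (update d i (N, h) i).1 ∈ M.S ∧ P ⊆ (update d i (N, h) i).1 ∧ _
    rw [update_self]
    refine ⟨hN.mem, (hPU.trans subset_union_right).trans hN.sub, hNR,
      hN.sub (Or.inl rfl), hh, fun a ha => ?_, h2, fun j hj => ?_⟩
    · rw [h3 a (hPU ha)]
      exact hgP a ha
    · rw [update_of_ne hj.ne]
      refine ⟨(hUd j hj).trans (subset_union_right.trans hN.sub), fun a ha => ?_⟩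
      rw [h3 a (hUd j hj ha)]
      exact hgd j hj a ha)
  have hmono : Monotone fun i => (d i).1 := by
    intro i j hij
    rcases hij.lt_or_eq with h | h
    · exact ((hd j).2.2.2.2.2.2.2 i h).1
    · rw [h]
  have hsub : (⋃ i, (d i).1) ⊆ R := iUnion_subset fun i => (hd i).2.2.1
  obtain ⟨g, hg, hg'⟩ := hglue W (fun i => (d i).1) (fun i => (d i).2) hmono
    (fun i => (hd i).1) ((mk_le_mk_of_subset hsub).trans (M.S_card hR).le)
    (fun i => (hd i).2.2.2.2.1) (by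
      intro i j hij a ha
      rcases hij.lt_or_eq with h | h
      · exact ((hd j).2.2.2.2.2.2.2 i h).2 a ha
      · rw [h])
  obtain ⟨i₀⟩ := (inferInstance : Nonempty W)
  refine ⟨g, hg, fun a ha => ?_, fun a ha => ?_⟩
  · rw [hg' i₀ a ((hd i₀).2.1 ha)]
    exact (hd i₀).2.2.2.2.2.1 a ha
  · obtain ⟨i, rfl⟩ := hRr' ha
    refine mem_iUnion.2 ⟨i, ?_⟩
    rw [hg' i _ (hd i).2.2.2.1]
    exact (hd i).2.2.2.2.2.2.1 _ (hd i).2.2.2.1

end Vale.Agent.P307.R2.H827
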